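import Crest.Agent.X212.Rf65.Pr
import Crest.Agent.X212.Clr59.Ys
import Crest.Agent.X212.Dgr80.La0
import Crest.Agent.X212.Dg64.Rig
import Crest.Agent.X212.Sep15.QaR
import Crest.Agent.X212.Loc8.Wld
import Crest.Agent.X212.Tm38.Abw

/-!
# Row 212, RF-FLC (helper82): flat connections on simply connected pieces
-/

set_option autoImplicit false
set_option linter.unusedSectionVars false
noncomputable section
open scoped Manifold ContDiff Topology InnerProductSpace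
open Set Function Filter

namespace Crest.Agent.X212.Dw82
open An Nd18 Wz78 Pj41 Cyf70 Bki64 Eqv71
open M (Mf)
open Abel74 (RedOn)
open Tmp64 (AdmOn admOn_univ)
open Dfl49 (Flt Sur)
open Rf65 (ParY)

section gen
variable {E : Type} [NormedAddCommGroup E] [NormedSpace ℝ E] [FiniteDimensional ℝ E]
  [MeasurableSpace E] [BorelSpace E]
  {HM : Type} [TopologicalSpace HM] {I : ModelWithCorners ℝ E HM} [I.Boundaryless]
  {M : Type} [TopologicalSpace M] [ChartedSpace HM M] [IsManifold I ∞ M] [T2Space M]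
  [MeasurableSpace M] [BorelSpace M] [SecondCountableTopology M]
  {ι : Type} [Fintype ι] {lam : Type} [Fintype lam] {B : Base M ι lam} {G : Geo I M ι lam}
  {O : Set M} {x : M} {r : ℕ} {c : Cfg M ι lam r}

/-- parallel unit sections with a prescribed value -/
theorem exists_val (hB : B.OK I) (hG : G.OK B) (A : c.Adm B G) (hO : IsOpen O) (hx : x ∈ O)
    (hs : Sur {x} O) (h : ∀ z ∈ O, c.m.Fg G.F c.W z = 0) {v : c.m.A} (hv : v ∈ c.m.gS x)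
    (h4 : ⟪v, v⟫_ℝ = 16) :
    ∃ ξ, RedOn G.F c.m c.W O ξ ∧ ξ x = v ∧ ∀ z ∈ O, ⟪ξ z, ξ z⟫_ℝ = 16 := by
  have cn := Eqv71.con_adW A.conn
  have sk := adW_skw A.conn
  have s := Std94.sm_pg hB A.ok
  have hQ : Flt G.F O (c.m.adW c.W) c.m.pg := ⟨hO, fun a x _ => cn.sm a x,
    fun a x _ => by rw [hG.P]; exact cn.proj a x, fun x _ => s x,
    fun a x _ => by rw [pg_par A.ok A.conn s a x, zero_mul], fun a b x hx => by
      ext1 w
      rw [mul_apply_eq_comp, curv_adW_g hB hG A.ok A.conn a b (pg_mem x w), h x hx]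
      simp [adc_apply]⟩
  obtain ⟨U, hU, -, -, hl⟩ := hQ.exists_loc hx
  obtain ⟨σ, s1, s2⟩ := hl x (mem_of_mem_nhds hU) v (pg_of_mem hv)
  obtain ⟨t, t1, t2⟩ := hs _ _ hQ.ls σ (by rintro _ rfl; exact mem_of_superset hU s2)
  have t3 := fun x hx => (t1 x hx).self_of_nhds
  have nm := Loc8.sur_prop hs (P := fun x => ⟪t x, t x⟫_ℝ = 16) (fun x hx => (Dfl49.par_uniq (F := G.F)
    (A := fun _ _ => (0 : ℝ →L[ℝ] ℝ)) (s := fun y => ⟪t y, t y⟫_ℝ) (s' := fun _ => ⟪t x, t x⟫_ℝ)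
    (.of_forall fun y a => ⟨contMDiffAt_const, by simp⟩) ((t1 x hx).mono fun y hy =>
      ⟨hy.sm.inner hy.sm, fun a => by
        rw [nab, dv_inner (e := G.F.e) a (sk a y) hy.sm hy.sm, hy.par]; simp⟩)
    (.of_forall fun y => ⟨contMDiffAt_const, fun a => by simp [nab]⟩) rfl).mono fun y hy =>
      (congrArg (· = 16) hy).to_iff) (by rintro _ rfl; rw [t2 rfl, s1, h4])
  have mem : ∀ x ∈ O, t x ∈ c.m.gS x := fun x hx => (t3 x hx).mem ▸ pg_mem x _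
  exact ⟨t, ⟨fun x hx => (t3 x hx).sm, mem, fun y hy => Abel74.sq_of_norm hB A.ok (mem y hy)
    (by rw [← real_inner_self_eq_norm_sq, nm y hy]), fun x hx => (t3 x hx).par⟩,
    (t2 rfl).trans s1, nm⟩

theorem inner_unit {V : Type} [NormedAddCommGroup V] [InnerProductSpace ℝ V] {v : V} (h : v ≠ 0) :
    ⟪(4 / ‖v‖) • v, (4 / ‖v‖) • v⟫_ℝ = 16 := by
  rw [real_inner_self_eq_norm_sq, norm_smul, norm_div, norm_norm,
    div_mul_cancel₀ _ (norm_ne_zero_iff.2 h)]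
  norm_num

/-- the transported section -/
abbrev tr {κ κ' : Type} [Fintype κ] [Fintype κ'] [DecidableEq κ] (u : M → CL (Eu κ) (Eu κ')) (ξ : M → HS κ) (x : M) :
    En κ' := u x ∘L opL (ξ x) ∘L trn (u x)

theorem tr_est {r' : ℕ} {c' : Cfg M ι lam r'} {u : M → CL c.m.V c'.m.V} {ζ : M → Circle}
    (hc : AdmOn c B G O) (sk : ∀ a, Skw (c'.W a x)) {η : ℝ} (h : Cl G.F c c' u ζ O 0 η)
    {ξ : M → c.m.A} (R : RedOn G.F c.m c.W O ξ) (hx : x ∈ O) :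
    SA I (tr u ξ) x ∧ ‖tr u ξ x‖ ≤ 1 ∧ ∀ a,
      ‖G.F.D a (tr u ξ) x - Dg64.lr (c'.W a x) (c'.W a x) (tr u ξ x)‖ ≤ 2 * η := by
  have su := h.iso.su x hx
  have sξ : SA I (fun x => opL (ξ x)) x := SA.clm opL (R.sm x hx)
  have uu : trn (u x) ∘L u x = c.m.p x := ad_trn (u x) ▸ (h.iso.iso x hx).src
  have g1 := g_p (R.mem x hx)
  have g2 := Sep15.Qa.xp (hc.ok.prj hx) (R.mem x hx)
  have n := Dgr80.eta_le uu g1 g2 (g_skw (R.mem x hx)) (R.sq x hx) (hc.ok.pidem x hx)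
  refine ⟨sa_comp su (sa_comp sξ (sa_trn su)), n, fun a => ?_⟩
  have e := opL_nab (e := G.F.e) (W := c.W) a (R.sm x hx)
  rw [R.par x hx, map_zero, nabE, add_eq_zero_iff_eq_neg] at e
  have e1 := (dv_ccomp (e := G.F.e a) sξ (sa_trn su)).trans
    (congrArg₂ (fun s t => s ∘L trn (u x) + opL (ξ x) ∘L t) e (dv_trn su))
  have e2 := ((dv_ccomp (e := G.F.e a) su (sa_comp sξ (sa_trn su))).trans
    (congrArg (fun t => _ + u x ∘L t) e1)).trans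
      (Dgr80.eta_D uu g1 g2 (hc.conn.sk a x hx) (sk a))
  have e3 : G.F.D a (tr u ξ) x - Dg64.lr (c'.W a x) (c'.W a x) (tr u ξ x) =
      dA G.F c c' u a x ∘L tr u ξ x + tr u ξ x ∘L trn (dA G.F c c' u a x) := by
    refine (congrArg (· - _) e2).trans ?_
    rw [ContinuousLinearMap.sub_comp, ContinuousLinearMap.comp_add, Dg64.lr_app]
    exact (fun p q s t : En (Fin c'.m.N) => (by abel : p - q + (s + t) - (t - q) = p + s)) _ _ _ _
  have k := ((h.A a) x hx).2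
  have k' : ‖trn (dA G.F c c' u a x)‖ ≤ η := (LinearIsometryEquiv.norm_map _ _).trans_le k
  rw [e3, two_mul]
  exact norm_add_le_of_le ((ContinuousLinearMap.opNorm_comp_le _ _).trans
    ((mul_le_of_le_one_right (norm_nonneg _) n).trans k))
    ((ContinuousLinearMap.opNorm_comp_le _ _).trans ((mul_le_of_le_one_left (norm_nonneg _) n).trans k'))

end gen

section cyl
variable {Y : Mf 3} [CompactSpace Y.M] {κ : Type} [Fintype κ] {lam : Type} [Fintype lam]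
  {D : YD Y.I Y.M κ lam} {β : YC Y.M κ lam} {r : ℕ} {c : Cfg (Y.M × ℝ) (Option κ) lam r}
  {T : Set ℝ} {u : Y.M × ℝ → CL c.m.V β.m.V} {ζ : Circle}

/-- **limits of parallel sections** -/
theorem par_lim (hβ : D.Adm β) (hc : AdmOn c D.B D.G (univ ×ˢ T)) {l : Filter ℝ} [l.NeBot]
    (L : ∀ k, ∀ η > 0, ∃ S ∈ l, S ⊆ T ∧ D.Cls c β u ζ S k η) (y₀ : Y.M)
    (h : ∀ s ∈ T, ∀ w ∈ c.m.gS (y₀, s), ⟪w, w⟫_ℝ = 16 →
      ∃ ξ, RedOn D.Z c.m c.W (univ ×ˢ T) ξ ∧ ξ (y₀, s) = w)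
    {v : β.m.A} (hv : v ∈ β.m.gS y₀) (h4 : ⟪v, v⟫_ℝ = 16) : ∃ ξ, ParY D β ξ ∧ ξ y₀ = v := by
  have ok' := fun O => OK.on hβ.adm.ok O
  have C : ∀ η > 0, ∀ᶠ s in (Ultrafilter.of l : Filter ℝ), ∃ S, s ∈ S ∧ S ⊆ T ∧
      Cl D.Z c (cy β) u (fun _ => ζ) (univ ×ˢ S) 0 η := fun η hη =>
    let ⟨S, h1, h2, h3⟩ := L 0 η hη
    Ultrafilter.of_le l (mem_of_superset h1 fun s hs =>
      ⟨S, hs, h2, cl_of_cls hβ (hc.mono (prod_mono_right h2)) h3⟩)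
  have : ∀ s, ∃ ξ : Y.M × ℝ → c.m.A, ∀ S η, s ∈ S → S ⊆ T →
      Cl D.Z c (cy β) u (fun _ => ζ) (univ ×ˢ S) 0 η →
        RedOn D.Z c.m c.W (univ ×ˢ T) ξ ∧ cj (u (y₀, s)) (ξ (y₀, s)) = v := fun s => by
    by_cases k : ∃ S η, s ∈ S ∧ S ⊆ T ∧ Cl D.Z c (cy β) u (fun _ => ζ) (univ ×ˢ S) 0 η
    swap
    · exact ⟨0, fun S η a b e => (k ⟨S, η, a, b, e⟩).elim⟩
    obtain ⟨S, η, k1, k2, k3⟩ := k
    have o := (hc.mono (prod_mono_right k2)).ok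
    have i := k3.iso.symm o (ok' _)
    have m : (y₀, s) ∈ univ ×ˢ S := ⟨trivial, k1⟩
    obtain ⟨ξ, R, e⟩ := h s (k2 k1) _ (Loc66.cj_mem i (ok' _) o m hv)
      ((Loc66.inner_cj_g i m v hv).trans h4)
    refine ⟨ξ, fun _ _ _ _ _ => ⟨R, ?_⟩⟩
    rw [e]
    exact (cj_cj _ _ _).trans ((congrArg (cj · v) (k3.iso.iso _ m).tgt).trans (ME.cj_p (m := (cy β).m) (x := (y₀, s)) hv))
  choose ξ hξ using this
  have sW : ∀ a, Sm Y.I (β.W a) := fun a _ => sm_slice (t := 0) (hβ.adm.conn.cc.sm a _)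
  have est : ∀ η > 0, ∀ᶠ s in (Ultrafilter.of l : Filter ℝ), cj (u (y₀, s)) (ξ s (y₀, s)) = v ∧
      ∀ y, cj (u (y, s)) (ξ s (y, s)) ∈ β.m.gS y ∧ SA (IC Y.I) (tr u (ξ s)) (y, s) ∧
        ‖tr u (ξ s) (y, s)‖ ≤ 1 ∧ ∀ a, ‖D.Z.D a (tr u (ξ s)) (y, s) -
          Dg64.lr (β.W a y) (β.W a y) (tr u (ξ s) (y, s))‖ ≤ 2 * η := fun η hη =>
    (C η hη).mono fun s ⟨S, k1, k2, k3⟩ =>
      have R := (hξ s S η k1 k2 k3).1.mono (prod_mono_right k2)
      have a := hc.mono (prod_mono_right k2)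
      ⟨(hξ s S η k1 k2 k3).2, fun y =>
        ⟨Loc66.cj_mem k3.iso a.ok (ok' _) (x := (y, s)) ⟨trivial, k1⟩ (R.mem _ ⟨trivial, k1⟩),
          tr_est a (hβ.adm.conn.sk · _) k3 R (x := (y, s)) ⟨trivial, k1⟩⟩⟩
  obtain ⟨g, sg, dg, hg⟩ := Dg64.ode_lim (F := D.F.toPre) (𝒰 := Ultrafilter.of l)
    (f := fun s y => tr u (ξ s) (y, s)) (fun a => Dg64.sm_lr (sW (some a)) (sW (some a)))
    (BB.zero_of (.of_forall fun _ => isOpen_univ) ((est 1 one_pos).mono fun s h y _ =>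
      ⟨sm_slice (h.2 y).2.1, (h.2 y).2.2.1⟩)) fun a ε hε =>
      (est (ε / 2) (half_pos hε)).mono fun s h => ⟨isOpen_univ, fun y _ => by
        have sf : Sm Y.I fun y => tr u (ξ s) (y, s) := fun y => sm_slice (h.2 y).2.1
        refine ⟨((D.F.toPre.sm_D sf a).sub
          ((Dg64.sm_lr (sW (some a)) (sW (some a))).clm_apply sf)) y, ?_⟩
        have e := D_some_at D.F.toPre (h.2 y).2.1.md a
        have k := (h.2 y).2.2.2 (some a)
        rw [mul_div_cancel₀ _ two_ne_zero] at k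
        exact (congrArg (fun t => ‖t - _‖) e.symm).trans_le k⟩
  have pt : ∀ y, Tendsto (fun s => cj (u (y, s)) (ξ s (y, s))) (Ultrafilter.of l) (𝓝 (hsL (g y))) :=
    fun y => (hsL.continuous.tendsto _).comp (f := fun s => tr u (ξ s) (y, s)) (tendsto_iff_norm_sub_tendsto_zero.2
      (NormedAddGroup.tendsto_nhds_zero.2 fun ε hε => (hg _ (half_pos hε)).mono fun n h => by
        rw [norm_norm]; exact (h y).trans_lt (half_lt_self hε)))
  refine ⟨fun y => hsL (g y), ⟨fun y => SA.clm hsL (sg y), fun y =>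
    (β.m.gS y).closed_of_finiteDimensional.mem_of_tendsto (pt y)
      ((est 1 one_pos).mono fun s h => (h.2 y).1), fun k y => ?_⟩,
    tendsto_nhds_unique_of_eventuallyEq (pt y₀) tendsto_const_nhds
      ((est 1 one_pos).mono fun s h => h.1)⟩
  rw [nab, Sob92.dv_clm hsL (sg.mdifferentiable (by simp) y), ← Pre.D_def, dg, Rdc90.A0, adc_apply, Wz78.opL_hsL, ← map_add,
    Dg64.lr_app]
  exact (congrArg hsL (sub_add_sub_cancel' _ _ _ |>.trans (sub_self _))).trans (map_zero _)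

/-- the limit of a configuration with three parallel sections is central -/
theorem dz_lim [ConnectedSpace Y.M] (hD : D.OK) (hβ : D.Adm β) (hc : AdmOn c D.B D.G (univ ×ˢ T))
    {l : Filter ℝ} [l.NeBot] (L : ∀ k, ∀ η > 0, ∃ S ∈ l, S ⊆ T ∧ D.Cls c β u ζ S k η)
    (h : ∀ x ∈ univ ×ˢ T, ∀ w ∈ c.m.gS x, ⟪w, w⟫_ℝ = 16 →
      ∃ ξ, RedOn D.Z c.m c.W (univ ×ˢ T) ξ ∧ ξ x = w) : Rf65.dz D β = 3 := by
  refine Clr59.dz_cen hD hβ (Classical.arbitrary _) fun v hv => ?_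
  by_cases v0 : v = 0
  · exact ⟨0, (Clr59.parS D β).zero_mem, v0.symm⟩
  obtain ⟨ξ, p, e⟩ := par_lim hβ hc L _ (fun s hs => h _ ⟨trivial, hs⟩)
    (Submodule.smul_mem _ (4 / ‖v‖) hv) (inner_unit v0)
  refine ⟨(‖v‖ / 4) • ξ, (Clr59.parS D β).smul_mem _ p, ?_⟩
  rw [Pi.smul_apply, e, smul_smul, div_mul_div_cancel₀ four_ne_zero,
    div_self (norm_ne_zero_iff.2 v0), one_smul]

end cyl

open M Mod61 Rf65

variable {Wi : Type} {X : Mf 4} {A κ lam : Type} [Fintype A] [Fintype κ] [Fintype lam]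
  [DecidableEq lam] {M : Mark X A κ} {W : World M} {N : ML M lam} {Λ : Lns W N}
  {A' h : Type} [Fintype A'] [DecidableEq A'] [Fintype h] {r n : ℕ}

theorem sur_pc {c : M.Cl} {π : Reg A} (hπ : M.sys.Piece c.1 π) (h : SC (M.sys.U π)) {z : (W.Z c).M}
    (hz : z ∈ W.φ c '' M.sys.U π) : Sur {z} (W.pc c π) := by
  obtain ⟨x, hx, rfl⟩ := hz
  rw [← (Loc8.oz_sub W.toCaps hπ (M.sys.isOpen_U π) Subset.rfl).antisymm
    (Loc8.sub_oz _ (Cyl58.isOpen_pc _ hπ) (Loc8.pc_diff _ hπ).subset)]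
  exact Loc8.sur_oz _ (M.sys.isOpen_U π) (Loc8.U_src _ hπ) hx (h.2 x hx)

theorem end_img {m c : M.Cl} {p : Prm A} {a : A} {b : Bool} {S : Xs Wi κ lam}
    {g : S.Y.M → (M.bn a).Y.M} {K : Nk S.D (Λ.B m c) (Λ.G m c p)} (h : IsNk a (some b) g K)
    (ha : Act m c a (some b) p) {π : Reg A} (hπ : M.sys.Piece c.1 π) (hb : π a = some b)
    {z : S.Y.M × ℝ} (hz : z.2 ∈ K.J) : K.ψ z ∈ W.φ c '' M.sys.U π := by
  have e : p.2 a = 1 := ha.2.1.2 ha.2.2.2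
  have e' : K.J = Jv (Cht98.np 1 b) (Cht98.nq 1 b) := by
    rw [Nk.J, h.lo, h.hi]
    cases b <;> simp [Cht98.np, Cht98.nq]
  obtain ⟨s, ⟨h1, h2⟩, h3⟩ := (Cht98.bijOn_len le_rfl b).surjOn (e' ▸ hz)
  replace h2 := h2.resolve_left (lt_irrefl _)
  have := h.ψ z.1 s (by cases b; exacts [h1.1, h2]) (by cases b; exacts [h2, h1.2])
  rw [e, Option.getD_some, h3] at this
  refine this ▸ ⟨_, hπ.adj a b hb ⟨⟨_, rfl⟩, (M.bn a).j_mem_sd.2 ?_⟩, rfl⟩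
  cases b <;> simpa [pm] using h2

/-- **LEAF FLC** -/
theorem flc (J : Job Wi Λ A' h r n) (c : M.Cl) : Flc J c := by
  intro hJ δ y π a b hδ hπ ha hb sc go fl
  have hB := Λ.B_ok J.m c
  have hG := Λ.G_ok J.m go.O
  have ad : y.x.con.Adm (J.B c) (J.G c y.s) := ⟨go.adm.ok, go.adm.conn, go.adm.sm, go.adm.pos, .inl rfl⟩
  have op := Cyl58.isOpen_pc W.toCaps hπ
  have val := fun z hz v => exists_val hB hG ad op (x := z) (.inl hz) (sur_pc hπ sc hz) fl (v := v)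
  constructor
  · have := M.con
    obtain ⟨x, hx⟩ := hπ.toIsReg.nonempty
    obtain ⟨v, v0⟩ : ∃ v : y.x.m.gS (W.φ c x), v ≠ 0 := (Module.finrank_pos_iff_exists_ne_zero (R := ℝ)).1 (by
      rw [Std94.finrank_g hB (Std94.pmx go.adm.ok _)]; norm_num)
    obtain ⟨ξ, R, -, k⟩ := val _ ⟨x, hx, rfl⟩ _ (Submodule.smul_mem _ (4 / ‖(v : y.x.m.A)‖) v.2)
      (inner_unit fun e => v0 (Subtype.ext e))
    refine ⟨ξ, ⟨fun z hz => (R.sm z hz).contMDiffWithinAt, R.mem, fun i z hz => R.par z hz i⟩,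
      fun z hz => ?_⟩
    have := k z hz
    rw [real_inner_self_eq_norm_sq] at this
    nlinarith [norm_nonneg (ξ z)]
  · have act : Act J.m c a (some b) (J.Θ y.s) := ⟨ha.2, go.br, go.O, ha.1⟩
    have m : ((⟨a, ha⟩, b) : Ed c) ∈ EdP c {π} := ⟨π, rfl, hb⟩
    obtain ⟨d, d0, k⟩ := go.lim _ m act
    have bs := go.bs _ m
    have := J.conn_xs a
    have e : IsEnd (dr b) ∧ (dr b).NeBot := by
      cases b
      exacts [⟨isEnd_top, atTop_neBot⟩, ⟨isEnd_bot, atBot_neBot⟩]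
    obtain ⟨u, L⟩ := Tm38.elim_lim (hδ.trans d0) e.1 k
    have := e.2
    refine dz_lim bs.ok bs.adm (Sep15.Qa.adm_pb ad Subset.rfl) L fun x hx w hw h4 => ?_
    obtain ⟨ξ, R, e, -⟩ := val _ (end_img (hJ.nk _ _ _ _ act) act hπ hb hx.2) w hw h4
    exact ⟨_, Sep15.Qa.red_pb R Subset.rfl ((J.K c a _ _ act).tgt ▸ un_one W.toCaps c π ▸
      hJ.end_sub act (P := {π}) (fun _ e => e ▸ hπ) ⟨π, rfl, hb⟩), e⟩

end Crest.Agent.X212.Dw82
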