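import Crest.Agent.X212.Dg64.Lf
import Crest.Agent.X212.Cay24.GlK
import Crest.Agent.X212.Cay24.GlB
import Crest.Agent.X212.Nka63.B

/-!
# Row 212, DG-VOL (helper82): uniform weighted volume
-/

set_option autoImplicit false
set_option linter.unusedSectionVars false
noncomputable section
open scoped Manifold ContDiff Topology NNReal ENNReal
open Set Function Filter MeasureTheory Real

namespace Crest.Agent.X212.Dw82
open An An.Job M Nd18 Gj67 Cay24
open Gl67 (ka ka_zero ka_nonneg ka_lin ka_lip ka_mono)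

theorem ka_ge (s : ℝ) : s - 1 ≤ ka s := by
  rcases le_total 1 s with h | h
  · linarith [ka_lin le_rfl h, ka_nonneg 1]
  · linarith [ka_nonneg s]

theorem ka_le (s : ℝ) : ka s + ka (-s) ≤ |s| := by
  have k : ∀ s : ℝ, 0 ≤ s → ka s + ka (-s) ≤ |s| := fun s h => by
    linarith [ka_lip h, ka_zero le_rfl, ka_zero (neg_nonpos.2 h), abs_of_nonneg h]
  rcases le_total 0 s with h | h
  · exact k s h
  · have := k (-s) (neg_nonneg.2 h)
    rwa [neg_neg, add_comm, abs_neg] at this

theorem tent_le {c R τ u : ℝ} (hc : 0 < c) (hR : 1 ≤ R) (h : 0 < tent R τ u) :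
    exp (-c * tent R τ u) ≤
      exp (c * (R + 2)) * (exp (-c * |u - nl τ / 2|) + exp (-c * |u + nl τ / 2|)) := by
  have h1 : 0 < nl τ / 2 - R - rho u := lt_of_not_ge fun k => h.ne' (ka_zero k)
  have h2 := ka_ge (nl τ / 2 - R - rho u)
  have h3 : ka 1 ≤ 1 := by linarith [ka_lip zero_le_one, ka_zero le_rfl]
  have h4 := ka_le u
  have := ka_ge u
  have := ka_ge (-u)
  have := ka_nonneg u
  have := ka_nonneg (-u)
  have := ka_nonneg 1
  have k : ∀ v, nl τ / 2 - |u| = v → exp (-c * tent R τ u) ≤ exp (c * (R + 2)) * exp (-c * v) := by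
    rintro _ rfl
    rw [← exp_add]
    exact exp_le_exp.2 (by rw [tent]; rw [rho] at h2 ⊢; nlinarith)
  rw [rho] at h1
  rw [mul_add]
  rcases le_total 0 u with h5 | h5
  · exact (k _ (by rw [abs_of_nonneg h5, abs_of_nonpos (by linarith)]; ring)).trans
      (le_add_of_nonneg_right (by positivity))
  · exact (k _ (by rw [abs_of_nonpos h5, abs_of_nonneg (by linarith)]; ring)).trans
      (le_add_of_nonneg_left (by positivity))

theorem cyl_le {Y : Type} [MeasurableSpace Y] (μ : Measure Y) [IsFiniteMeasure μ] {c R : ℝ}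
    (hc : 0 < c) (hR : 1 ≤ R) : ∃ V < ⊤, ∀ τ, ∫⁻ z in {z : Y × ℝ | 0 < tent R τ z.2},
      ENNReal.ofReal (exp (-c * tent R τ z.2)) ∂μ.prod volume ≤ V := by
  have i := int_exp hc
  refine ⟨ENNReal.ofReal (μ.real univ * (exp (c * (R + 2)) * (2 * ∫ u : ℝ, exp (-c * |u|)))),
    ENNReal.ofReal_lt_top, fun τ => ?_⟩
  have i1 := i.comp_sub_right (nl τ / 2)
  have i2 := i.comp_add_right (nl τ / 2)
  have m : MeasurableSet {z : Y × ℝ | 0 < tent R τ z.2} :=
    (isOpen_lt continuous_const (cd_tent R τ).continuous).measurableSet.preimage measurable_snd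
  refine (setLIntegral_mono' m fun z hz => ENNReal.ofReal_le_ofReal (tent_le hc hR hz)).trans
    ((setLIntegral_le_lintegral _ _).trans_eq ?_)
  refine (ofReal_integral_eq_lintegral_ofReal (((i1.add i2).const_mul _).comp_snd μ)
    (.of_forall fun _ => by simp only [Pi.add_apply, Pi.zero_apply]; positivity)).symm.trans ?_
  simp only [Pi.add_apply]
  rw [integral_fun_snd fun u => exp (c * (R + 2)) *
      (exp (-c * |u - nl τ / 2|) + exp (-c * |u + nl τ / 2|)), integral_const_mul,
    integral_add i1 i2, integral_sub_right_eq_self (fun u => exp (-c * |u|)),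
    integral_add_right_eq_self (fun u => exp (-c * |u|)), two_mul, smul_eq_mul]

variable {Wi : Type} {X : Mf 4} {A κ lam : Type} [Fintype A] [Fintype κ] [Fintype lam]
  [DecidableEq lam] {M : Mark X A κ} {W : World M} {L : ML M lam} {Λ : Lns W L}
  {A' h : Type} [Fintype A'] [DecidableEq A'] [Fintype h] {r n : ℕ}
  {J : Job Wi Λ A' h r n} {σ : Cel A'} {a : A'}
  {U Up R : Type} [NormedAddCommGroup U] [NormedSpace ℝ U] [NormedAddCommGroup Up]
  [NormedSpace ℝ Up] [NormedAddCommGroup R] [NormedSpace ℝ R] {d : Dat J σ a U Up R}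
  {q₀ : Wi →₀ ℝ} {δ : ℝ} (H : d.OK q₀ δ)
include H

/-- the face is compact off the two ends -/
theorem core : IsCompact (⋃ b, (d.KS b).ψ.target ∩ {x | 5 < -pm b * (d.KS b).tm x})ᶜ := by
  have k := (Cht98.endIn_J (θ := fun _ : ℝ => d.y.s) H.ok (d.hb false).2.1 (d.hb false).2.2.1
    contDiff_const isClopen_univ isClopen_univ Subset.rfl).cov
  refine k.of_isClosed_subset (isOpen_iUnion fun b => (d.KS b).ψ.open_target.inter
    (isOpen_lt continuous_const (continuous_const.mul (d.KS b).cont))).isClosed_compl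
    (compl_subset_compl.2 (iUnion_subset ?_))
  rintro ⟨⟨x, hx⟩, b⟩ z hz
  obtain rfl : d.x = x := cf_sub a H.hd hx.1
  have := hz.2
  rw [Cht98.wEnd_sg] at this
  exact mem_iUnion.2 ⟨b, hz.1, this⟩

theorem int_S {c : ℝ} (hc : 0 < c) : Integrable (fun x => exp (-c * d.hS x)) d.FS.F0.μ := by
  have m : Continuous fun x => exp (-c * d.hS x) :=
    continuous_exp.comp (continuous_const.mul d.sm_hS.continuous)
  rw [← integrableOn_univ, ← compl_union_self
    (⋃ b, (d.KS b).ψ.target ∩ {x | 5 < -pm b * (d.KS b).tm x})]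
  refine (m.continuousOn.integrableOn_compact (core H)).union
    (integrableOn_finite_iUnion.2 fun b => ?_)
  have k : IntegrableOn (fun x => exp (c * (d.R0 + 1)) * exp (-c * |(d.KS b).tm x|))
      (d.KS b).ψ.target d.FS.F0.μ := (Nka63.integrableOn_comp_iff (d.KS b).iso).1
    (IntegrableOn.congr_fun (((int_exp hc).const_mul (exp (c * (d.R0 + 1)))).comp_snd
      d.D.F.μ).integrableOn (fun z hz => by simp only [(d.KS b).tm_ψ z hz])
      (d.KS b).ψ.open_source.measurableSet)
  refine (k.mono_set inter_subset_left).mono' m.aestronglyMeasurable ((ae_restrict_mem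
    ((d.KS b).ψ.open_target.inter (isOpen_lt continuous_const
      (continuous_const.mul (d.KS b).cont))).measurableSet).mono fun x hx => ?_)
  have h1 : 5 < -pm b * (d.KS b).tm x := hx.2
  have h2 : (d.KS b).τ x = (d.KS b).tm x := (d.KS b).τ_eq (by
    have k := H.ok.nk _ _ _ _ (d.hb b)
    show (d.KS b).tm x ∈ Dp _ _ 1
    rw [k.lo, k.hi]
    cases b <;> simp [Dp, pm] at h1 ⊢ <;> linarith)
  rw [norm_of_nonneg (exp_pos _).le, ← exp_add]
  refine exp_le_exp.2 ?_
  have : |(d.KS b).tm x| - d.R0 - 1 ≤ d.hS x := by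
    rw [Dat.hS]
    cases b <;> simp only [pm, if_true, Bool.false_eq_true, if_false] at h1
    · rw [h2, abs_of_nonneg (by linarith)]
      linarith [ka_ge ((d.KS false).tm x - d.R0), ka_nonneg (-(d.KS true).τ x - d.R0)]
    · rw [h2, abs_of_nonpos (by linarith)]
      linarith [ka_ge (-(d.KS true).tm x - d.R0), ka_nonneg ((d.KS false).τ x - d.R0)]
  nlinarith

/-- **DG-VOL** -/
theorem vol (G : d.Geo) : d.Vol := fun c hc => by
  obtain ⟨V, h1, h2⟩ := cyl_le d.D.F.μ hc H.R1
  have h3 := (int_S H hc).lintegral_lt_top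
  refine ⟨_, (ev_at G).mono fun τ g => le_of_le_of_eq ?_
    (ENNReal.coe_toNNReal (ENNReal.add_lt_top.2 ⟨h3, h1⟩).ne).symm⟩
  rw [← setLIntegral_univ,
    show univ = (d.φ τ).target ∪ (d.ψ τ).target from (eq_univ_of_forall fun x => by
      rw [g.φ.2.2.1, g.ψ.2.2.1]
      exact (lt_or_ge (d.hX τ x) (d.la τ)).imp_right fun k => show 0 < d.hX τ x by linarith [g.la]).symm]
  refine (lintegral_union_le _ _ _).trans (add_le_add ((Nka63.lintegral_comp_le g.φ.1 _).trans
    ((setLIntegral_congr_fun (d.φ τ).open_source.measurableSet fun z hz => by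
      simp only [(g.φ.2.2.2 z hz).1]).trans_le (setLIntegral_le_lintegral _ _)))
    ((Nka63.lintegral_comp_le g.ψ.1 _).trans ((setLIntegral_congr_fun
      (d.ψ τ).open_source.measurableSet fun z hz => by
        simp only [(g.ψ.2.2.2 z hz).1]; rfl).trans_le (by rw [g.ψ.2.1]; exact h2 τ))))

end Crest.Agent.X212.Dw82
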