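import Crest.Agent.X212.Dg64.Lf
import Crest.Agent.X212.Gb50.Ht
import Crest.Agent.X212.Glw30.Main
import Crest.Agent.X212.End14.Cyl

/-!
# Row 212, DG-WND (helper82): the local gauges on the windows of the ends
-/

set_option autoImplicit false
set_option linter.unusedSectionVars false
noncomputable section
open scoped Manifold ContDiff Topology
open Set Function Filter

namespace Crest.Agent.X212.Dw82
open An An.Job M Nd18 Gj67 Gb50 Cht98 Pj41 Bki64 Cmp73 Cyf70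

section gen
variable {E : Type} [NormedAddCommGroup E] [NormedSpace ℝ E] [FiniteDimensional ℝ E]
  [MeasurableSpace E] [BorelSpace E]
  {HM : Type} [TopologicalSpace HM] {I : ModelWithCorners ℝ E HM} [I.Boundaryless]
  {M : Type} [TopologicalSpace M] [ChartedSpace HM M] [IsManifold I ∞ M]
  [MeasurableSpace M] [T2Space M] [BorelSpace M] [SecondCountableTopology M]
  {κ lam : Type} [Fintype κ] [Fintype lam] {Y : Mf 3} [CompactSpace Y.M] {r r' k : ℕ}

/-- closeness in a chart -/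
theorem cl_pb {F : Fr (IC Y.I) (Y.M × ℝ) (Option κ)} {F' : Fr I M (Option κ)} {ψ : Y.M × ℝ → M}
    {O : Set (Y.M × ℝ)} (f : FRel F F' ψ O) {M' : Type} [TopologicalSpace M']
    {c : Cfg M' (Option κ) lam r} {c' : Cfg M (Option κ) lam r'} {χ : M → M'} {χ' : Y.M × ℝ → M'}
    (e : ∀ z ∈ O, χ' z = χ (ψ z)) {u : M → CL c.m.V c'.m.V} {ζ : Circle} {η : ℝ}
    (h : Cl F' (pb χ c) c' u (fun _ => ζ) (ψ '' O) k η) :
    Cl F (pb χ' c) (pb ψ c') (fun z => u (ψ z)) (fun _ => ζ) O k η := by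
  refine ⟨f.op, ⟨fun z hz => f.sm hz (h.iso.su _ ⟨z, hz, rfl⟩), fun z hz => ?_,
    fun z hz => h.iso.J _ ⟨z, hz, rfl⟩, fun z hz a => ?_, fun z hz s => ?_⟩,
    fun a => (End14.lb_iff f fun z hz => ?_).2 (h.A a), (End14.lb_iff f fun z hz => ?_).2 h.P⟩
  · show CIso _ (c.m.p (χ' z)) _
    rw [e z hz]; exact h.iso.iso _ ⟨z, hz, rfl⟩
  · show _ = _ ∘L c.m.ρ a (χ' z)
    rw [e z hz]; exact h.iso.ρ _ ⟨z, hz, rfl⟩ a
  · show _ = _ ∘L c.m.j (χ' z) s
    rw [e z hz]; exact h.iso.j _ ⟨z, hz, rfl⟩ s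
  · show (F.D a (fun z => u (ψ z)) z + c'.W a (ψ z) ∘L u (ψ z) - u (ψ z) ∘L c.W a (χ' z)) ∘L
      trn (u (ψ z)) = _
    rw [e z hz, f.D hz a (.of_forall fun _ => rfl)]; rfl
  · show cs _ ζ (u (ψ z) (c.Φ (χ' z))) - _ = _
    rw [e z hz]; rfl

end gen

variable {Wi : Type} {X : Mf 4} {A κ lam : Type} [Fintype A] [Fintype κ] [Fintype lam]
  [DecidableEq lam] {M : Mark X A κ} {W : World M} {L : ML M lam} {Λ : Lns W L}
  {A' h : Type} [Fintype A'] [DecidableEq A'] [Fintype h] {r n : ℕ}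
  {J : Job Wi Λ A' h r n} {σ : Cel A'} {a : A'}
  {U Up R : Type} [NormedAddCommGroup U] [NormedSpace ℝ U] [NormedAddCommGroup Up]
  [NormedSpace ℝ Up] [NormedAddCommGroup R] [NormedSpace ℝ R] {d : Dat J σ a U Up R}
  {q₀ : Wi →₀ ℝ} {δ : ℝ} (H : d.OK q₀ δ)
include H

theorem hy : Glw30.Hy J (J.cf a) :=
  ⟨H.ok, H.nW, H.nΛ, up0 H, fun _ k => sub_m H ⟨k, id⟩, H.unc⟩

theorem S_J' {b : Bool} {u : ℝ} (hu : 0 < -pm b * u) : u ∈ Jv (np 1 b) (nq 1 b) := by
  have := (S_J H b).2 hu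
  rwa [isNk_J (d.hb b) (H.ok.nk _ _ _ _ _), px] at this

/-- off its middle part the neck is the end -/
theorem up_KS {p : Prm A} (ha : Act J.m M.c0 d.x none p) {b : Bool} {z : d.Y × ℝ}
    (hz : 0 < -pm b * z.2) (k : (1 - p.2 d.x) / 2 ≤ pm b * li 1 b z.2) :
    (z.1, z.2 + if b then nl (p.2 d.x) else 0) ∈ (J.K _ d.x none _ ha).ψ.source ∧
      (J.K _ d.x none _ ha).ψ (z.1, z.2 + if b then nl (p.2 d.x) else 0) =
        up (J.cf a) ((d.KS b).ψ z) := by
  have h0 : p.2 d.x < 1 := ha.2.2.1 _ (fr0 _)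
  have h1 := li_mem le_rfl (S_J' H hz)
  have h2 : li 1 b z.2 ∈ Hs (p.2 d.x) false := ⟨h1.1, .inl h0⟩
  have h3 : (z.2 + if b then nl (p.2 d.x) else 0) = len (p.2 d.x) false (li 1 b z.2) := by
    have := (len_eq_len_one ha.2.2.2.2.2 k).trans (len_li le_rfl (S_J' H hz))
    cases b
    · simpa using this.symm
    · rw [len_false h0, this, if_pos rfl]
  have h4 := isNk_ψ (d.hb b) (H.ok.nk _ _ _ _ _) ((S_J H b).2 hz)
  rw [px] at h4
  rw [h3, h4, Glw30.up_eq (up0 H)]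
  refine ⟨(Nk.mem_src _).2 (isNk_J ha (H.ok.nk _ _ _ _ _) ▸ (bijOn_len h0.le _).1 h2),
    (isNk_len ha (H.ok.nk _ _ _ _ _) h2 z.1).trans (W.up_φ (up0 H) (Mark.j_not_mem _
      (.inl ⟨H.hd, fun e => ?_⟩))).symm⟩
  have := h1.2.resolve_left (lt_irrefl _)
  cases b <;> simp [show li 1 _ z.2 = 0 from e] at this

theorem ev_up {α : Type} {l : Filter α} {t : α → ℝ} (ht : Tendsto t l (𝓝 1)) {b : Bool} {S : Set ℝ}
    (hS : IsCompact S) (h : ∀ u ∈ S, 0 < -pm b * u) :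
    ∀ᶠ i in l, ∀ u ∈ S, (1 - t i) / 2 ≤ pm b * li 1 b u := ev_compact hS fun u hu => by
  have h1 := S_J' H (h u hu)
  refine (Tendsto.eventually_lt (((ht.comp tendsto_fst).const_sub 1).div_const 2)
    ((((hasDerivAt_li le_rfl h1).continuousAt.tendsto).comp tendsto_snd).const_mul (pm b))
      ?_).mono fun _ k => k.le
  have := (li_mem le_rfl h1).2.resolve_left (lt_irrefl _)
  cases b <;> simpa [pm] using this

/-- **DG-WND** -/
theorem wnd : d.Wnd := by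
  intro α l y g θ hy' hs hu b s h1 j ε hε
  have k0 : ∀ u ∈ Icc (s - 1) (s + 1), 0 < -pm b * u := fun u hu => by
    have := hu.1; have := hu.2
    cases b <;> simp only [pm, if_true, Bool.false_eq_true, if_false] at h1 ⊢ <;> linarith
  have k1 : univ ×ˢ Icc (s - 1) (s + 1) ⊆ (d.KS b).ψ.source := fun z hz =>
    (Nk.mem_src _).2 ((S_J H b).2 (k0 _ hz.2))
  have k2 : win d.Y s 1 ⊆ univ ×ˢ Icc (s - 1) (s + 1) := prod_mono_right Ioo_subset_Icc_self
  have f := (d.KS b).rel.mono (win_op s 1) (k2.trans k1)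
  have K := (isCompact_univ.prod isCompact_Icc).image_of_continuousOn
    ((d.KS b).ψ.continuousOn.mono k1)
  have z1 : ∀ {V : Type} [NormedAddCommGroup V] [NormedSpace ℝ V] [FiniteDimensional ℝ V]
      {f : α → (W.Z (J.cf a)).M → V}, Cv (W.Z (J.cf a)).I l univ f (fun _ => 0) →
      ZZ (J.G (J.cf a) d.y.s).F.toPre l (fun _ => (d.KS b).ψ '' win d.Y s 1) j f :=
    ZZ.of_cv isOpen_univ K (subset_univ _) f.isOpen_image (image_mono k2) j
  have ok := H.sol.ok H.ok H.mem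
  have ht : Tendsto (fun i => (J.Θ (y i).s).2 d.x) l (𝓝 ((J.Θ d.y.s).2 d.x)) :=
    (((continuous_apply d.x).comp (continuous_snd.comp H.ok.sm.continuous)).tendsto _).comp hs
  rw [px] at ht
  filter_upwards [hy', eventually_all.2 fun a => z1 (hu.A a) ε hε,
    z1 (hu.Φ.sub (Cv.fixed' ok.1.sm) |>.congr' isOpen_univ (.of_forall fun _ _ _ => rfl)
      fun x _ => (sub_self _).symm) ε hε,
    ev_compact (p := fun i x => Iso0 _ (pb (up (J.cf a)) (y i).x).m d.y.x.m {x} (g i)) K fun x _ =>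
      End14.ulim_iso hu (hy'.mono fun _ k => (hy H).ok_pb k.1.1.ok) ok.1.ok (mem_univ x),
    ev_up H ht isCompact_Icc k0] with i i1 i2 i3 i4 i5 ha
  have e := fun z (hz : z ∈ win d.Y s 1) => up_KS H ha (k0 _ (k2 hz).2) (i5 _ (k2 hz).2)
  have f2 := ((fRel_of_iso (F := d.D.Z) (F' := d.D.Z) (iso_tau d.D.F.toPre
    (if b then d.ln (y i) else 0))).mono (win_op s 1) (subset_univ _)).trans
      (J.K _ d.x none _ ha).rel fun z hz => (e z hz).1
  refine cl_pb f (fun z hz => (e z hz).2) ⟨f.isOpen_image,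
    End14.iso0_pt fun x hx => i4 x (image_mono k2 hx), fun c => (i2 c).2.congr f.isOpen_image
      (forall_mem_image.2 fun z hz => ?_), i3.2⟩
  have u := Glw30.up_loc (W := W) (up0 H) ((d.KS b).ψ z)
  have : J.fu (J.cf a) (y i).s c ((d.KS b).ψ z) = (J.G (J.cf a) d.y.s).F.e c ((d.KS b).ψ z) := by
    refine (Met55.ld_bij u).1 ((Met55.pbv_rel u _).trans ?_)
    rw [← f.e c z hz, ← Glw30.G_e i1.1.2, ← (e z hz).2]
    exact (f2.e c z hz).symm.trans (DFunLike.congr_fun ((Dr59.mf_congr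
      (((win_op s 1).eventually_mem hz).mono fun z hz => (e z hz).2)).trans (Dr59.mf_comp
        (g := up (J.cf a)) (f := (d.KS b).ψ) (u.mdifferentiableAt (by simp)) ((f.ld z hz).mdifferentiableAt (by simp)))) _)
  simp only [Sob92.dv, this]
  rfl

end Crest.Agent.X212.Dw82
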